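import Vale.Agent.P205.Flat.Tame

/-!
Solutions of the flatness equation up to a constant, for all small parameters.
-/

namespace Vale.Agent.P205

open scoped ContDiff Real ComplexConjugate
open Four Complex Filter Topology

noncomputable section

/-- A smooth family solving the flatness equation up to a constant. -/
structure FlatFamily' (a b : R2) (φ : R2 → ℝ) (ε₀ : ℝ) (w : ℝ → R2 → ℝ) : Prop where
  pos : 0 < ε₀
  zero : ∀ p, w 0 p = 0
  smooth : ∀ ε ∈ Set.Icc 0 ε₀, ContDiff ℝ ∞ (w ε)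
  periodic : ∀ ε ∈ Set.Icc 0 ε₀, Periodic2 a b (w ε)
  flatUpTo : ∀ ε ∈ Set.Icc 0 ε₀, ∃ c : ℝ, ∀ p, lap (w ε) p + c =
    ε ^ 2 * Real.exp (2 * w ε p) * (lap (w ε) p
      * ((dX (φ + w ε) p) ^ 2 + (dY (φ + w ε) p) ^ 2) + detHess (w ε) (φ + w ε) p)
  cont0 : ContinuousOn (fun x : ℝ × R2 => w x.1 x.2) (Set.Icc 0 ε₀ ×ˢ Set.univ)
  contX : ContinuousOn (fun x : ℝ × R2 => dX (w x.1) x.2) (Set.Icc 0 ε₀ ×ˢ Set.univ)
  contY : ContinuousOn (fun x : ℝ × R2 => dY (w x.1) x.2) (Set.Icc 0 ε₀ ×ˢ Set.univ)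
  contXX : ContinuousOn (fun x : ℝ × R2 => dX (dX (w x.1)) x.2) (Set.Icc 0 ε₀ ×ˢ Set.univ)
  contXY : ContinuousOn (fun x : ℝ × R2 => dX (dY (w x.1)) x.2) (Set.Icc 0 ε₀ ×ˢ Set.univ)
  contYY : ContinuousOn (fun x : ℝ × R2 => dY (dY (w x.1)) x.2) (Set.Icc 0 ε₀ ×ˢ Set.univ)

/-- The coordinates with respect to a lattice basis. -/
def latCoord (a b : R2) : R2 →L[ℝ] R2 :=
  ((b.2 / det2 a b) • ContinuousLinearMap.fst ℝ ℝ ℝ
      - (b.1 / det2 a b) • ContinuousLinearMap.snd ℝ ℝ ℝ).prod
    ((a.1 / det2 a b) • ContinuousLinearMap.snd ℝ ℝ ℝ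
      - (a.2 / det2 a b) • ContinuousLinearMap.fst ℝ ℝ ℝ)

/-- The point with given lattice coordinates. -/
def latPoint (a b : R2) : R2 →L[ℝ] R2 :=
  (ContinuousLinearMap.fst ℝ ℝ ℝ).smulRight a + (ContinuousLinearMap.snd ℝ ℝ ℝ).smulRight b

variable {a b : R2}

lemma latPoint_coord (hab : det2 a b ≠ 0) (p : R2) : latPoint a b (latCoord a b p) = p := by
  ext <;> simp [latPoint, latCoord] <;> field_simp <;> simp [det2] <;> ring

lemma latCoord_left (hab : det2 a b ≠ 0) : latCoord a b a = (1, 0) := by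
  ext <;> simp [latCoord] <;> field_simp
  all_goals simp [det2]
  all_goals ring

lemma latCoord_right (hab : det2 a b ≠ 0) : latCoord a b b = (0, 1) := by
  ext <;> simp [latCoord] <;> field_simp <;> simp [det2]

/-- First derivative multiplier. -/
def dOne (a b : R2) (k : K) : ℂ := dmul (latCoord a b (1, 0)) k

/-- Second derivative multiplier. -/
def dTwo (a b : R2) (k : K) : ℂ := dmul (latCoord a b (0, 1)) k

/-- The symbol of minus the Laplacian. -/
def symb (a b : R2) (k : K) : ℝ :=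
  ph k (latCoord a b (1, 0)) ^ 2 + ph k (latCoord a b (0, 1)) ^ 2

/-- The inverse Laplacian. -/
def invLap (a b : R2) (k : K) : ℂ := (((-symb a b k)⁻¹ : ℝ) : ℂ)

/-- The size of the basis. -/
def latSize (a b : R2) : ℝ := sq2 a + sq2 b

lemma ph_split (k : K) (v : R2) :
    ph k (latCoord a b v) = v.1 * ph k (latCoord a b (1, 0)) + v.2 * ph k (latCoord a b (0, 1)) := by
  have e : v = v.1 • ((1 : ℝ), (0 : ℝ)) + v.2 • ((0 : ℝ), (1 : ℝ)) := by ext <;> simp
  conv_lhs => rw [e]
  simp only [map_add, map_smul, smul_eq_mul]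

lemma symb_lower (hab : det2 a b ≠ 0) {k : K} (hk : k ≠ 0) : 1 ≤ latSize a b * symb a b k := by
  have key : ∀ v : R2, ph k (latCoord a b v) ^ 2 ≤ sq2 v * symb a b k := fun v => by
    rw [ph_split, symb, sq2]
    nlinarith [sq_nonneg (v.1 * ph k (latCoord a b (0, 1)) - v.2 * ph k (latCoord a b (1, 0)))]
  have h0 := key a
  have h1 := key b
  rw [latCoord_left hab, ph_apply] at h0
  rw [latCoord_right hab, ph_apply] at h1
  simp at h0 h1
  have hp : (1 : ℝ) ≤ (2 * π) ^ 2 := one_le_pow₀ (by linarith [Real.two_le_pi])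
  obtain ⟨i, hi⟩ := Function.ne_iff.mp hk
  have hi2 : (1 : ℝ) ≤ (k i : ℝ) ^ 2 := by
    have : (1 : ℤ) ≤ (k i) ^ 2 := by nlinarith [Int.one_le_abs hi, sq_abs (k i)]
    exact_mod_cast this
  have hs : 0 ≤ symb a b k := by unfold symb; positivity
  have ha : 0 ≤ sq2 a := by unfold sq2; positivity
  have hb : 0 ≤ sq2 b := by unfold sq2; positivity
  have := mul_le_mul hp hi2 zero_le_one (by positivity)
  have := mul_nonneg ha hs
  have := mul_nonneg hb hs
  fin_cases i <;> simp [latSize] at * <;> nlinarith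

lemma latSize_nonneg (a b : R2) : 0 ≤ latSize a b := by unfold latSize sq2; positivity

lemma norm_invLap (hab : det2 a b ≠ 0) (k : K) : ‖invLap a b k‖ ≤ latSize a b + 1 := by
  have hS := latSize_nonneg a b
  rcases eq_or_ne k 0 with rfl | hk
  · simp [invLap, symb, ph_apply]; linarith
  · have h := symb_lower hab hk
    have hs : 0 < symb a b k := by
      by_contra hc
      nlinarith
    rw [invLap, Complex.norm_real, Real.norm_eq_abs, abs_inv, abs_neg, abs_of_pos hs,
      inv_le_iff_one_le_mul₀ hs]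
    nlinarith

lemma norm_first (hab : det2 a b ≠ 0) (v : R2) (hv : sq2 v ≤ 1) (k : K) :
    ‖dmul (latCoord a b v) k * invLap a b k‖ ≤ latSize a b + 1 := by
  have hS := latSize_nonneg a b
  rcases eq_or_ne k 0 with rfl | hk
  · simp [invLap, symb, ph_apply]; linarith
  · have h := symb_lower hab hk
    have hs : 0 < symb a b k := by
      by_contra hc
      nlinarith
    rw [norm_mul, invLap, dmul, norm_mul, norm_I, mul_one, Complex.norm_real, Complex.norm_real,
      Real.norm_eq_abs, Real.norm_eq_abs, abs_inv, abs_neg, abs_of_pos hs, ← div_eq_mul_inv,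
      div_le_iff₀ hs]
    have hX : ph k (latCoord a b v) ^ 2 ≤ symb a b k := by
      rw [ph_split, symb]
      rw [sq2] at hv
      nlinarith [sq_nonneg (v.1 * ph k (latCoord a b (0, 1)) - v.2 * ph k (latCoord a b (1, 0))),
        sq_nonneg (ph k (latCoord a b (1, 0))), sq_nonneg (ph k (latCoord a b (0, 1)))]
    nlinarith [sq_nonneg (|ph k (latCoord a b v)| - 1), sq_abs (ph k (latCoord a b v))]

lemma norm_second (v v' : R2) (hv : sq2 v ≤ 1) (hv' : sq2 v' ≤ 1) (k : K) :
    ‖dmul (latCoord a b v) k * dmul (latCoord a b v') k * invLap a b k‖ ≤ latSize a b + 1 := by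
  have hS := latSize_nonneg a b
  have key : ∀ w : R2, sq2 w ≤ 1 → ph k (latCoord a b w) ^ 2 ≤ symb a b k := fun w hw => by
    rw [ph_split, symb]
    rw [sq2] at hw
    nlinarith [sq_nonneg (w.1 * ph k (latCoord a b (0, 1)) - w.2 * ph k (latCoord a b (1, 0))),
      sq_nonneg (ph k (latCoord a b (1, 0))), sq_nonneg (ph k (latCoord a b (0, 1)))]
  have hs : 0 ≤ symb a b k := by unfold symb; positivity
  rw [norm_mul, norm_mul, invLap, dmul, dmul, norm_mul, norm_mul, norm_I, mul_one, mul_one,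
    Complex.norm_real, Complex.norm_real, Complex.norm_real, Real.norm_eq_abs, Real.norm_eq_abs,
    Real.norm_eq_abs, abs_inv, abs_neg, abs_of_nonneg hs, ← div_eq_mul_inv]
  refine le_trans (div_le_one_of_le₀ ?_ hs) (by linarith)
  nlinarith [sq_nonneg (|ph k (latCoord a b v)| - |ph k (latCoord a b v')|), key v hv, key v' hv',
    sq_abs (ph k (latCoord a b v)), sq_abs (ph k (latCoord a b v'))]

/-- A weight. -/
def wpow (η : ℝ) (s : ℕ) (k : K) : ℝ := (1 + η * kn k) ^ s

lemma wt_wpow {η : ℝ} (hη : 0 ≤ η) (s : ℕ) : Wt (wpow η s) := by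
  refine ⟨fun k => one_le_pow₀ (le_add_of_nonneg_right (mul_nonneg hη (kn_nonneg k))),
    by simp [wpow, kn_zero], fun j k => ?_⟩
  rw [wpow, wpow, wpow, ← mul_pow]
  refine pow_le_pow_left₀ (by have := kn_nonneg (j + k); positivity) ?_ s
  have := mul_le_mul_of_nonneg_left (kn_add j k) hη
  nlinarith [mul_nonneg (mul_nonneg hη (kn_nonneg j)) (mul_nonneg hη (kn_nonneg k))]

lemma wpow_le {η : ℝ} (h0 : 0 ≤ η) (h1 : η ≤ 1) (s : ℕ) (k : K) :
    wpow η s k ≤ (1 + kn k) ^ s :=
  pow_le_pow_left₀ (by have := kn_nonneg k; positivity)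
    (add_le_add le_rfl (mul_le_of_le_one_left (kn_nonneg k) h1)) s

lemma exists_wpow {n : ℕ} (d : Fin n → K → ℂ) (hd : ∀ i, Rapid (d i)) (A : ℝ)
    (hA : ∀ i, wn wone (d i) < A) (s : ℕ) :
    ∃ η : ℝ, 0 < η ∧ η < 1 ∧ ∀ i, (Summable fun k => wpow η s k * ‖d i k‖) ∧ wn (wpow η s) (d i) ≤ A := by
  have hlim : ∀ i, Tendsto (fun η => wn (wpow η s) (d i)) (𝓝[>] (0 : ℝ)) (𝓝 (wn wone (d i))) := by
    intro i
    refine tendsto_tsum_of_dominated_convergence (bound := fun k => (1 + kn k) ^ s * ‖d i k‖)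
      (hd i s) (fun k => ?_) ?_
    · refine tendsto_nhdsWithin_of_tendsto_nhds ?_
      have hc : Continuous fun η : ℝ => wpow η s k * ‖d i k‖ := by unfold wpow; fun_prop
      simpa [wpow, wone] using hc.tendsto 0
    · filter_upwards [Ioo_mem_nhdsGT (show (0 : ℝ) < 1 by norm_num)] with η hη k
      rw [Real.norm_of_nonneg (mul_nonneg ((wt_wpow hη.1.le s).nonneg k) (norm_nonneg _))]
      exact mul_le_mul_of_nonneg_right (wpow_le hη.1.le hη.2.le s k) (norm_nonneg _)
  obtain ⟨η, h1, h2⟩ := ((eventually_all.mpr fun i => (hlim i).eventually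
    (eventually_lt_nhds (hA i))).and (Ioo_mem_nhdsGT (show (0 : ℝ) < 1 by norm_num))).exists
  exact ⟨η, h2.1, h2.2, fun i => ⟨(hd i s).of_nonneg_of_le
    (fun k => mul_nonneg ((wt_wpow h2.1.le s).nonneg k) (norm_nonneg _))
    (fun k => mul_le_mul_of_nonneg_right (wpow_le h2.1.le h2.2.le s k) (norm_nonneg _)), (h1 i).le⟩⟩

/-- The real function with given coefficients in lattice coordinates. -/
def reSer (a b : R2) (d : K → ℂ) (p : R2) : ℝ := (fser d (latCoord a b p)).re

lemma contDiff_reSer {d : K → ℂ} (hd : Rapid d) : ContDiff ℝ ∞ (reSer a b d) :=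
  Complex.reCLM.contDiff.comp ((contDiff_fser hd).comp (latCoord a b).contDiff)

lemma fderiv_reSer {d : K → ℂ} (hd : Rapid d) (p v : R2) :
    fderiv ℝ (reSer a b d) p v = reSer a b (fun k => dmul (latCoord a b v) k * d k) p := by
  have h1 : DifferentiableAt ℝ (fser d) (latCoord a b p) :=
    ((contDiff_fser hd).differentiable (by simp)).differentiableAt
  have h : HasFDerivAt (reSer a b d)
      (Complex.reCLM.comp ((fderiv ℝ (fser d) (latCoord a b p)).comp (latCoord a b))) p :=
    Complex.reCLM.hasFDerivAt.comp p (h1.hasFDerivAt.comp p (latCoord a b).hasFDerivAt)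
  rw [h.fderiv]
  simp [reSer, fderiv_fser hd]

lemma dX_reSer {d : K → ℂ} (hd : Rapid d) :
    dX (reSer a b d) = reSer a b fun k => dOne a b k * d k :=
  funext fun p => fderiv_reSer hd p _

lemma dY_reSer {d : K → ℂ} (hd : Rapid d) :
    dY (reSer a b d) = reSer a b fun k => dTwo a b k * d k :=
  funext fun p => fderiv_reSer hd p _

/-- An affine jet. -/
def jet (d m u : K → ℂ) : R2 → ℂ := fser fun k => d k + m k * u k

/-- The right hand side of the equation without the parameter, as a complex function. -/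
def flatRhs (a b : R2) (c u : K → ℂ) : R2 → ℂ :=
  let w := jet 0 (invLap a b) u
  let wx := jet 0 (fun k => dOne a b k * invLap a b k) u
  let wy := jet 0 (fun k => dTwo a b k * invLap a b k) u
  let wxx := jet 0 (fun k => dOne a b k * dOne a b k * invLap a b k) u
  let wyy := jet 0 (fun k => dTwo a b k * dTwo a b k * invLap a b k) u
  let x := jet (fun k => dOne a b k * c k) (fun k => dOne a b k * invLap a b k) u
  let y := jet (fun k => dTwo a b k * c k) (fun k => dTwo a b k * invLap a b k) u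
  let xx := jet (fun k => dOne a b k * dOne a b k * c k)
    (fun k => dOne a b k * dOne a b k * invLap a b k) u
  let xy := jet (fun k => dOne a b k * dTwo a b k * c k)
    (fun k => dOne a b k * dTwo a b k * invLap a b k) u
  let yy := jet (fun k => dTwo a b k * dTwo a b k * c k)
    (fun k => dTwo a b k * dTwo a b k * invLap a b k) u
  (fun p => Complex.exp (2 * w p)) * ((wxx + wyy) * (x * x + y * y)
    + ((xx + wx * x - wy * y) * (yy - wx * x + wy * y)
      - (xy + wx * y + wy * x) * (xy + wx * y + wy * x)))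

/-- The five coefficient sequences coming from the data. -/
def jetData (a b : R2) (c : K → ℂ) : Fin 5 → K → ℂ :=
  ![fun k => dOne a b k * c k, fun k => dTwo a b k * c k,
    fun k => dOne a b k * dOne a b k * c k, fun k => dOne a b k * dTwo a b k * c k,
    fun k => dTwo a b k * dTwo a b k * c k]

lemma tame_flatRhs (hab : det2 a b ≠ 0) {c : K → ℂ} {A : ℝ} (hA : 0 ≤ A) {𝒲 : (K → ℝ) → Prop}
    (h𝒲 : Fam 𝒲)
    (hdat : ∀ W, 𝒲 W → ∀ i, (Summable fun k => W k * ‖jetData a b c i k‖)
      ∧ wn W (jetData a b c i) ≤ A) :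
    Tame 𝒲 (flatRhs a b c) := by
  have C0 : 0 ≤ latSize a b + 1 := by linarith [latSize_nonneg a b]
  have u1 : sq2 ((1 : ℝ), (0 : ℝ)) ≤ 1 := by simp [sq2]
  have u2 : sq2 ((0 : ℝ), (1 : ℝ)) ≤ 1 := by simp [sq2]
  have z : ∀ W, 𝒲 W → (Summable fun k => W k * ‖(0 : K → ℂ) k‖) ∧ wn W 0 ≤ A := fun W _ =>
    ⟨by simp [summable_zero], by simp [wn, hA]⟩
  have hw := tame_affine h𝒲 C0 (norm_invLap hab) z
  have hwx := tame_affine h𝒲 C0 (norm_first hab _ u1) z
  have hwy := tame_affine h𝒲 C0 (norm_first hab _ u2) z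
  have hwxx := tame_affine h𝒲 C0 (norm_second (a := a) (b := b) _ _ u1 u1) z
  have hwyy := tame_affine h𝒲 C0 (norm_second (a := a) (b := b) _ _ u2 u2) z
  have hx := tame_affine h𝒲 C0 (norm_first hab _ u1) fun W hW => hdat W hW 0
  have hy := tame_affine h𝒲 C0 (norm_first hab _ u2) fun W hW => hdat W hW 1
  have hxx := tame_affine h𝒲 C0 (norm_second (a := a) (b := b) _ _ u1 u1) fun W hW => hdat W hW 2
  have hxy := tame_affine h𝒲 C0 (norm_second (a := a) (b := b) _ _ u1 u2) fun W hW => hdat W hW 3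
  have hyy := tame_affine h𝒲 C0 (norm_second (a := a) (b := b) _ _ u2 u2) fun W hW => hdat W hW 4
  have hA1 := (hxx.add h𝒲 (hwx.mul h𝒲 hx)).sub h𝒲 (hwy.mul h𝒲 hy)
  have hA2 := (hyy.sub h𝒲 (hwx.mul h𝒲 hx)).add h𝒲 (hwy.mul h𝒲 hy)
  have hA3 := (hxy.add h𝒲 (hwx.mul h𝒲 hy)).add h𝒲 (hwy.mul h𝒲 hx)
  exact ((hw.smul h𝒲 2).exp h𝒲).mul h𝒲 (((hwxx.add h𝒲 hwyy).mul h𝒲
    ((hx.mul h𝒲 hx).add h𝒲 (hy.mul h𝒲 hy))).add h𝒲 ((hA1.mul h𝒲 hA2).sub h𝒲 (hA3.mul h𝒲 hA3)))

lemma sym_invLap (a b : R2) : Sym (invLap a b) := fun k => by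
  rw [invLap, invLap, Complex.conj_ofReal]
  simp [symb, ph_apply]
  ring_nf

lemma conj_jet {d m u : K → ℂ} (hd : Sym d) (hm : Sym m) (hu : Sym u) (p : R2) :
    conj (jet d m u p) = jet d m u p := by
  rw [jet, ← (hd.add (hm.mul hu)).real p, Complex.conj_ofReal]

lemma rapid_mul_bounded {m u : K → ℂ} {C : ℝ} (hu : Rapid u) (hm : ∀ k, ‖m k‖ ≤ C) :
    Rapid fun k => (0 : K → ℂ) k + m k * u k := by
  simpa using hu.mul_bdd (j := 0) (C := C) (m := m) (by simpa using hm)

/-- Solutions up to a constant for all small parameters. -/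
theorem exists_flatFamily' {a b : R2} (hab : det2 a b ≠ 0) {φ : R2 → ℝ} (hφ : ContDiff ℝ ∞ φ)
    (hper : Periodic2 a b φ) : ∃ ε₀ w, FlatFamily' a b φ ε₀ w := by
  set P : R2 → ℂ := fun q => (φ (latPoint a b q) : ℂ) with hP
  have hPs : ContDiff ℝ ∞ P :=
    Complex.ofRealCLM.contDiff.comp (hφ.comp (latPoint a b).contDiff)
  have l1 : latPoint a b (1, 0) = a := by simp [latPoint]
  have l2 : latPoint a b (0, 1) = b := by simp [latPoint]
  have hPp : Periodic2 (1, 0) (0, 1) P :=
    ⟨fun q => by simp only [hP, map_add, l1, hper.1], fun q => by simp only [hP, map_add, l2, hper.2]⟩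
  set c := fcoef P with hc
  have hcr : Rapid c := rapid_fcoef hPs hPp
  have hcP : fser c = P := fser_fcoef hPs.continuous hPp hcr.summable
  have hcs : Sym c := sym_fcoef_of_real hcr.summable hcP.symm fun q => Complex.conj_ofReal _
  have hdR : ∀ i, Rapid (jetData a b c i) := by
    intro i
    have q1 := hcr.dmul (latCoord a b (1, 0))
    have q2 := hcr.dmul (latCoord a b (0, 1))
    have r11 := q1.dmul (latCoord a b (1, 0))
    have r12 := q2.dmul (latCoord a b (1, 0))
    have r22 := q2.dmul (latCoord a b (0, 1))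
    simp only [← mul_assoc] at r11 r12 r22
    fin_cases i
    · exact q1
    · exact q2
    · exact r11
    · exact r12
    · exact r22
  set A := 1 + ∑ i, wn wone (jetData a b c i) with hA
  have hA0 : 0 ≤ A := add_nonneg zero_le_one (Finset.sum_nonneg fun i _ => wt_wone.wn_nonneg _)
  have hAi : ∀ i, wn wone (jetData a b c i) < A := fun i => by
    have := Finset.single_le_sum (fun j _ => wt_wone.wn_nonneg (jetData a b c j)) (Finset.mem_univ i)
    simp only [hA]; linarith
  set 𝒲 : (K → ℝ) → Prop := fun W => Wt W ∧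
    ∀ i, (Summable fun k => W k * ‖jetData a b c i k‖) ∧ wn W (jetData a b c i) ≤ A with h𝒲d
  have h𝒲 : Fam 𝒲 := ⟨fun W h => h.1, wt_wone, fun i =>
    ⟨by simpa [wone] using (hdR i).summable, (hAi i).le⟩⟩
  have sD1 : Sym (dOne a b) := sym_dmul _
  have sD2 : Sym (dTwo a b) := sym_dmul _
  have sM := sym_invLap a b
  have s0 : Sym (0 : K → ℂ) := fun k => by simp
  obtain ⟨t₀, B, U, ht0, hB, hU0, hU⟩ := exists_fixed h𝒲
    (tame_flatRhs hab hA0 h𝒲 fun W hW => hW.2) (fun u _ hu p => by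
      have e1 := fun {m : K → ℂ} (hm : Sym m) => conj_jet s0 hm hu p
      have e2 := fun {d m : K → ℂ} (hd : Sym d) (hm : Sym m) => conj_jet hd hm hu p
      simp only [flatRhs, Pi.mul_apply, Pi.add_apply, Pi.sub_apply, map_mul, map_add, map_sub,
        ← Complex.exp_conj, map_ofNat, e1 sM, e1 (sD1.mul sM), e1 (sD2.mul sM),
        e1 ((sD1.mul sD1).mul sM), e1 ((sD2.mul sD2).mul sM), e2 (sD1.mul hcs) (sD1.mul sM),
        e2 (sD2.mul hcs) (sD2.mul sM), e2 ((sD1.mul sD1).mul hcs) ((sD1.mul sD1).mul sM),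
        e2 ((sD1.mul sD2).mul hcs) ((sD1.mul sD2).mul sM),
        e2 ((sD2.mul sD2).mul hcs) ((sD2.mul sD2).mul sM)])
  have hUR : ∀ t ∈ Set.Icc 0 t₀, Rapid (U t) := by
    intro t ht s
    obtain ⟨η, hη0, hη1, hηd⟩ := exists_wpow (jetData a b c) hdR A hAi s
    have hs := ((hU t ht).1 _ ⟨wt_wpow hη0.le s, hηd⟩).1.mul_left ((1 / η) ^ s)
    refine hs.of_nonneg_of_le (fun k => mul_nonneg (pow_nonneg (by linarith [kn_nonneg k]) _)
      (norm_nonneg _)) fun k => ?_
    rw [← mul_assoc, wpow, ← mul_pow]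
    refine mul_le_mul_of_nonneg_right (pow_le_pow_left₀ (by linarith [kn_nonneg k]) ?_ s) (norm_nonneg _)
    rw [div_mul_eq_mul_div, one_mul, le_div_iff₀ hη0]
    nlinarith [kn_nonneg k]
  set ε₀ := min 1 t₀ with hε₀
  have hε₀pos : 0 < ε₀ := lt_min one_pos ht0
  have hsq : ∀ ε ∈ Set.Icc 0 ε₀, ε ^ 2 ∈ Set.Icc 0 t₀ := by
    rintro ε ⟨e0, e1⟩
    have := min_le_left 1 t₀
    have := min_le_right 1 t₀
    exact ⟨sq_nonneg ε, by nlinarith⟩
  let w : ℝ → R2 → ℝ := fun ε => reSer a b fun k => (0 : K → ℂ) k + invLap a b k * U (ε ^ 2) k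
  have hC : ∀ k, ‖invLap a b k‖ ≤ latSize a b + 1 := norm_invLap hab
  have hwR : ∀ ε ∈ Set.Icc 0 ε₀, Rapid fun k => (0 : K → ℂ) k + invLap a b k * U (ε ^ 2) k :=
    fun ε hε => rapid_mul_bounded (hUR _ (hsq ε hε)) hC
  have hcont : ∀ (m : K → ℂ), (∀ k, ‖m k‖ ≤ latSize a b + 1) →
      ContinuousOn (fun x : ℝ × R2 => reSer a b (fun k => (0 : K → ℂ) k + m k * U (x.1 ^ 2) k) x.2)
        (Set.Icc 0 ε₀ ×ˢ Set.univ) := by
    intro m hm
    have C0 : 0 ≤ latSize a b + 1 := by linarith [latSize_nonneg a b]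
    have hsum : ∀ ε ∈ Set.Icc 0 ε₀, Summable fun k => ‖(0 : K → ℂ) k + m k * U (ε ^ 2) k‖ :=
      fun ε hε => (rapid_mul_bounded (hUR _ (hsq ε hε)) hm).summable
    refine continuousOn_prod_of_continuousOn_lipschitzOnWith _
      (Real.toNNReal ((latSize a b + 1) * (4 * B))) (fun ε hε => ?_) fun p _ => ?_
    · exact (Complex.continuous_re.comp ((continuous_fser (hsum ε hε)).comp
        (latCoord a b).continuous)).continuousOn
    · refine LipschitzOnWith.of_dist_le_mul fun ε hε δ hδ => ?_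
      rw [Real.coe_toNNReal _ (by positivity), Real.dist_eq, Real.dist_eq, reSer, reSer,
        ← Complex.sub_re]
      refine (Complex.abs_re_le_norm _).trans ?_
      rw [← Pi.sub_apply (fser _) (fser _), ← fser_sub (hsum ε hε) (hsum δ hδ)]
      have hS1 := ((hU _ (hsq ε hε)).1 _ h𝒲.one).norm wt_wone
      have hS2 := ((hU _ (hsq δ hδ)).1 _ h𝒲.one).norm wt_wone
      have hd : Summable fun k => ‖U (ε ^ 2) k - U (δ ^ 2) k‖ :=
        (hS1.add hS2).of_nonneg_of_le (fun k => norm_nonneg _) fun k => norm_sub_le _ _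
      have hle : ∀ k, ‖(0 : K → ℂ) k + m k * U (ε ^ 2) k - ((0 : K → ℂ) k + m k * U (δ ^ 2) k)‖
          ≤ (latSize a b + 1) * ‖U (ε ^ 2) k - U (δ ^ 2) k‖ := fun k => by
        rw [add_sub_add_left_eq_sub, ← mul_sub, norm_mul]
        exact mul_le_mul_of_nonneg_right (hm k) (norm_nonneg _)
      have hsd := (hd.mul_left (latSize a b + 1)).of_nonneg_of_le (fun k => norm_nonneg _) hle
      refine (norm_fser_le hsd _).trans ((hsd.tsum_le_tsum hle (hd.mul_left _)).trans ?_)
      rw [tsum_mul_left, mul_assoc]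
      refine mul_le_mul_of_nonneg_left ?_ C0
      refine ((hU _ (hsq ε hε)).2.2.2.2 _ (hsq δ hδ)).trans ?_
      have h1 : ε ≤ 1 := hε.2.trans (min_le_left _ _)
      have h2 : δ ≤ 1 := hδ.2.trans (min_le_left _ _)
      rw [show ε ^ 2 - δ ^ 2 = (ε + δ) * (ε - δ) by ring, abs_mul, abs_of_nonneg
        (add_nonneg hε.1 hδ.1), show 4 * B * |ε - δ| = 2 * B * (2 * |ε - δ|) by ring]
      exact mul_le_mul_of_nonneg_left
        (mul_le_mul_of_nonneg_right (by linarith) (abs_nonneg _)) (by positivity)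
  have ex : ∀ ε ∈ Set.Icc 0 ε₀, dX (w ε) = reSer a b (fun k => (0 : K → ℂ) k
      + dOne a b k * invLap a b k * U (ε ^ 2) k) ∧ dY (w ε) = reSer a b (fun k => (0 : K → ℂ) k
      + dTwo a b k * invLap a b k * U (ε ^ 2) k) := by
    intro ε hε
    simp only [w, dX_reSer (hwR ε hε), dY_reSer (hwR ε hε)]
    constructor <;> refine congrArg _ (funext fun k => ?_) <;> simp <;> ring
  have exx : ∀ ε ∈ Set.Icc 0 ε₀,
      dX (dX (w ε)) = reSer a b (fun k => (0 : K → ℂ) k
        + dOne a b k * dOne a b k * invLap a b k * U (ε ^ 2) k) ∧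
      dX (dY (w ε)) = reSer a b (fun k => (0 : K → ℂ) k
        + dOne a b k * dTwo a b k * invLap a b k * U (ε ^ 2) k) ∧
      dY (dY (w ε)) = reSer a b (fun k => (0 : K → ℂ) k
        + dTwo a b k * dTwo a b k * invLap a b k * U (ε ^ 2) k) := by
    intro ε hε
    have r1 : Rapid fun k => (0 : K → ℂ) k + dOne a b k * invLap a b k * U (ε ^ 2) k :=
      rapid_mul_bounded (hUR _ (hsq ε hε)) (norm_first hab _ (by simp [sq2]))
    have r2 : Rapid fun k => (0 : K → ℂ) k + dTwo a b k * invLap a b k * U (ε ^ 2) k :=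
      rapid_mul_bounded (hUR _ (hsq ε hε)) (norm_first hab _ (by simp [sq2]))
    rw [(ex ε hε).1, (ex ε hε).2, dX_reSer r1, dX_reSer r2, dY_reSer r2]
    refine ⟨?_, ?_, ?_⟩ <;> refine congrArg _ (funext fun k => ?_) <;> simp <;> ring
  refine ⟨ε₀, w, hε₀pos, fun p => ?_, fun ε hε => contDiff_reSer (hwR ε hε), fun ε hε => ?_,
    fun ε hε => ?_, hcont _ hC, ?_, ?_, ?_, ?_, ?_⟩
  · simp [w, reSer, fser, hU0]
  · constructor <;> intro p <;> simp only [w, reSer, map_add, latCoord_left hab, latCoord_right hab,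
      (fser_periodic _).1 _, (fser_periodic _).2 _]
  · obtain ⟨-, husym, hfix, hbd, -⟩ := hU _ (hsq ε hε)
    set u := U (ε ^ 2) with hu
    set Q := flatRhs a b c u with hQ
    obtain ⟨q1, -, q3⟩ := hbd.coef wt_wone
    have hQs := wt_wone.summable_norm q1
    set κ : ℂ := ((ε ^ 2 : ℝ) : ℂ) * fcoef Q 0 with hκ
    refine ⟨κ.re, fun p => ?_⟩
    have euu : fser u (latCoord a b p)
        = ((ε ^ 2 : ℝ) : ℂ) * Q (latCoord a b p) - κ := by
      have hsplit : ∀ k, u k * chr k (latCoord a b p)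
          = ((ε ^ 2 : ℝ) : ℂ) * (fcoef Q k * chr k (latCoord a b p)) - (if k = 0 then κ else 0) := by
        intro k
        rw [hfix k, step, ← hQ]
        split_ifs with h
        · subst h; rw [hκ, chr_zero]; ring
        · ring
      conv_rhs => rw [← q3]
      rw [fser, tsum_congr hsplit, fser, ((summable_fser hQs _).mul_left _).tsum_sub
        (summable_of_ne_finset_zero (s := {0}) fun k hk => by simp at hk; simp [hk]),
        tsum_mul_left, tsum_ite_eq]
    have elap : lap (w ε) p = (fser u (latCoord a b p)).re := by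
      unfold lap
      rw [(exx ε hε).1, (exx ε hε).2.2, reSer, reSer, ← Complex.add_re]
      congr 1
      have s1 : Summable fun k => ‖(0 : K → ℂ) k + dOne a b k * dOne a b k * invLap a b k * u k‖ :=
        (rapid_mul_bounded (hUR _ (hsq ε hε)) (norm_second (a := a) (b := b) _ _ (by simp [sq2])
          (by simp [sq2]))).summable
      have s2 : Summable fun k => ‖(0 : K → ℂ) k + dTwo a b k * dTwo a b k * invLap a b k * u k‖ :=
        (rapid_mul_bounded (hUR _ (hsq ε hε)) (norm_second (a := a) (b := b) _ _ (by simp [sq2])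
          (by simp [sq2]))).summable
      rw [← Pi.add_apply (fser _) (fser _), ← fser_add s1 s2]
      refine congrArg (fun d => fser d (latCoord a b p)) (funext fun k => ?_)
      rcases eq_or_ne k 0 with rfl | hk
      · simp [hfix 0, step]
      · have hne : symb a b k ≠ 0 := by
          intro h0
          have := symb_lower hab hk
          rw [h0] at this
          linarith
        have hI : (Complex.I) ^ 2 = -1 := Complex.I_sq
        simp only [Pi.zero_apply, zero_add, dOne, dTwo, dmul, invLap]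
        have hs : ((symb a b k : ℝ) : ℂ) = (ph k (latCoord a b (1, 0)) : ℂ) ^ 2
            + (ph k (latCoord a b (0, 1)) : ℂ) ^ 2 := by simp [symb]
        have hne' : ((symb a b k : ℝ) : ℂ) ≠ 0 := by exact_mod_cast hne
        push_cast
        field_simp
        linear_combination (-u k) * (Complex.I_sq) * ((symb a b k : ℝ) : ℂ) + (u k * Complex.I ^ 2) * hs
    have hχR : Rapid fun k => c k + ((0 : K → ℂ) k + invLap a b k * u k) := fun s => by
      refine ((hcr s).add (hwR ε hε s)).of_nonneg_of_le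
        (fun k => mul_nonneg (pow_nonneg (by linarith [kn_nonneg k]) _) (norm_nonneg _)) fun k => ?_
      rw [← mul_add]
      exact mul_le_mul_of_nonneg_left (norm_add_le _ _) (pow_nonneg (by linarith [kn_nonneg k]) _)
    have hχ : φ + w ε = reSer a b fun k => c k + ((0 : K → ℂ) k + invLap a b k * u k) := by
      funext x
      have hws : Summable fun k => ‖(0 : K → ℂ) k + invLap a b k * u k‖ := (hwR ε hε).summable
      rw [reSer, fser_add hcr.summable hws, Pi.add_apply, Pi.add_apply, Complex.add_re, hcP]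
      simp only [hP, Complex.ofReal_re, latPoint_coord hab]
      rfl
    have hx : dX (φ + w ε) = reSer a b fun k =>
        dOne a b k * c k + dOne a b k * invLap a b k * u k := by
      rw [hχ, dX_reSer hχR]
      exact congrArg _ (funext fun k => by simp; ring)
    have hy : dY (φ + w ε) = reSer a b fun k =>
        dTwo a b k * c k + dTwo a b k * invLap a b k * u k := by
      rw [hχ, dY_reSer hχR]
      exact congrArg _ (funext fun k => by simp; ring)
    have hr1 : Rapid fun k => dOne a b k * c k + dOne a b k * invLap a b k * u k := by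
      simpa [dOne, mul_add, mul_assoc] using hχR.dmul (latCoord a b (1, 0))
    have hr2 : Rapid fun k => dTwo a b k * c k + dTwo a b k * invLap a b k * u k := by
      simpa [dTwo, mul_add, mul_assoc] using hχR.dmul (latCoord a b (0, 1))
    have hxx : dX (dX (φ + w ε)) = reSer a b fun k =>
        dOne a b k * dOne a b k * c k + dOne a b k * dOne a b k * invLap a b k * u k := by
      rw [hx, dX_reSer hr1]
      exact congrArg _ (funext fun k => by ring)
    have hxy : dX (dY (φ + w ε)) = reSer a b fun k =>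
        dOne a b k * dTwo a b k * c k + dOne a b k * dTwo a b k * invLap a b k * u k := by
      rw [hy, dX_reSer hr2]
      exact congrArg _ (funext fun k => by ring)
    have hyy : dY (dY (φ + w ε)) = reSer a b fun k =>
        dTwo a b k * dTwo a b k * c k + dTwo a b k * dTwo a b k * invLap a b k * u k := by
      rw [hy, dY_reSer hr2]
      exact congrArg _ (funext fun k => by ring)
    have hwu : w ε = reSer a b fun k => (0 : K → ℂ) k + invLap a b k * u k := rfl
    have eX := ex ε hε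
    have eXX := exx ε hε
    rw [← hu] at eX eXX
    have er : ∀ {d m : K → ℂ}, Sym d → Sym m →
        jet d m u (latCoord a b p) = ((reSer a b (fun k => d k + m k * u k) p : ℝ) : ℂ) :=
      fun {d m} hd hm => ((hd.add (hm.mul husym)).real _).symm
    have hQv : ((ε ^ 2 : ℝ) : ℂ) * Q (latCoord a b p) = ((ε ^ 2 * Real.exp (2 * w ε p) * (lap (w ε) p
        * ((dX (φ + w ε) p) ^ 2 + (dY (φ + w ε) p) ^ 2) + detHess (w ε) (φ + w ε) p) : ℝ) : ℂ) := by
      simp only [lap, detHess]
      rw [hxx, hxy, hyy, hx, hy, eXX.1, eXX.2.2, eX.1, eX.2, hwu]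
      simp only [hQ, flatRhs, Pi.mul_apply, Pi.add_apply, Pi.sub_apply, er s0 sM,
        er s0 (sD1.mul sM), er s0 (sD2.mul sM), er s0 ((sD1.mul sD1).mul sM),
        er s0 ((sD2.mul sD2).mul sM), er (sD1.mul hcs) (sD1.mul sM), er (sD2.mul hcs) (sD2.mul sM),
        er ((sD1.mul sD1).mul hcs) ((sD1.mul sD1).mul sM),
        er ((sD1.mul sD2).mul hcs) ((sD1.mul sD2).mul sM),
        er ((sD2.mul sD2).mul hcs) ((sD2.mul sD2).mul sM)]
      push_cast
      ring
    conv_lhs => rw [elap, euu, hQv, Complex.sub_re, Complex.ofReal_re, sub_add_cancel]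
  · exact (hcont _ (norm_first hab (1, 0) (by simp [sq2]))).congr fun x hx => by
      simp only [(ex x.1 hx.1).1, dOne]
  · exact (hcont _ (norm_first hab (0, 1) (by simp [sq2]))).congr fun x hx => by
      simp only [(ex x.1 hx.1).2, dTwo]
  · exact (hcont _ (norm_second (a := a) (b := b) (1, 0) (1, 0) (by simp [sq2]) (by simp [sq2]))).congr
      fun x hx => by simp only [(exx x.1 hx.1).1, dOne]
  · exact (hcont _ (norm_second (a := a) (b := b) (1, 0) (0, 1) (by simp [sq2]) (by simp [sq2]))).congr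
      fun x hx => by simp only [(exx x.1 hx.1).2.1, dOne, dTwo]
  · exact (hcont _ (norm_second (a := a) (b := b) (0, 1) (0, 1) (by simp [sq2]) (by simp [sq2]))).congr
      fun x hx => by simp only [(exx x.1 hx.1).2.2, dTwo]

end

end Vale.Agent.P205
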