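import Vale.Agent.P205.Fourier.Algebra

/-!
Maps from coefficient sequences to functions, bounded in every admissible weight and Lipschitz in
the plain norm; the fixed points of small such maps.
-/

namespace Vale.Agent.P205.Four

open scoped Real ComplexConjugate
open Complex Filter Topology

noncomputable section

/-- The unit ball of a weighted space. -/
def Small (W : K → ℝ) (u : K → ℂ) : Prop := (Summable fun k => W k * ‖u k‖) ∧ wn W u ≤ 1

/-- The weights with which given data stay bounded. -/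
structure Fam (𝒲 : (K → ℝ) → Prop) : Prop where
  wt : ∀ W, 𝒲 W → Wt W
  one : 𝒲 wone

/-- Bounded in every weight and Lipschitz in the plain norm. -/
def Tame (𝒲 : (K → ℝ) → Prop) (F : (K → ℂ) → R2 → ℂ) : Prop :=
  ∃ B L : ℝ, 0 ≤ B ∧ 0 ≤ L ∧ (∀ W, 𝒲 W → ∀ u, Small W u → Bd W (F u) B) ∧
    ∀ u v, Small wone u → Small wone v → Bd wone (F u - F v) (L * wn wone (fun k => u k - v k))

variable {𝒲 : (K → ℝ) → Prop} {F G : (K → ℂ) → R2 → ℂ}

lemma Small.norm {u : K → ℂ} {W : K → ℝ} (hW : Wt W) (hu : Small W u) : Summable fun k => ‖u k‖ :=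
  hW.summable_norm hu.1

lemma wn_sub_nonneg (u v : K → ℂ) : 0 ≤ wn wone (fun k => u k - v k) := wt_wone.wn_nonneg _

theorem Tame.add (h𝒲 : Fam 𝒲) (hF : Tame 𝒲 F) (hG : Tame 𝒲 G) :
    Tame 𝒲 fun u => F u + G u := by
  obtain ⟨B, L, hB, hL, h1, h2⟩ := hF
  obtain ⟨B', L', hB', hL', g1, g2⟩ := hG
  refine ⟨B + B', L + L', add_nonneg hB hB', add_nonneg hL hL',
    fun W hW u hu => (h1 W hW u hu).add (h𝒲.wt W hW) (g1 W hW u hu), fun u v hu hv => ?_⟩
  have := (h2 u v hu hv).add wt_wone (g2 u v hu hv)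
  rw [← add_mul] at this
  convert this using 1
  ring

theorem Tame.smul (h𝒲 : Fam 𝒲) (hF : Tame 𝒲 F) (z : ℂ) :
    Tame 𝒲 fun u => fun p => z * F u p := by
  obtain ⟨B, L, hB, hL, h1, h2⟩ := hF
  refine ⟨‖z‖ * B, ‖z‖ * L, by positivity, by positivity,
    fun W hW u hu => (h1 W hW u hu).smul (h𝒲.wt W hW) z, fun u v hu hv => ?_⟩
  have := (h2 u v hu hv).smul wt_wone z
  rw [← mul_assoc] at this
  convert this using 1
  funext p; simp [mul_sub]

theorem Tame.sub (h𝒲 : Fam 𝒲) (hF : Tame 𝒲 F) (hG : Tame 𝒲 G) :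
    Tame 𝒲 fun u => F u - G u := by
  convert hF.add h𝒲 (hG.smul h𝒲 (-1)) using 1
  funext u p; simp [sub_eq_add_neg]

theorem Tame.mul (h𝒲 : Fam 𝒲) (hF : Tame 𝒲 F) (hG : Tame 𝒲 G) :
    Tame 𝒲 fun u => F u * G u := by
  obtain ⟨B, L, hB, hL, h1, h2⟩ := hF
  obtain ⟨B', L', hB', hL', g1, g2⟩ := hG
  refine ⟨B * B', B * L' + L * B', mul_nonneg hB hB', add_nonneg (mul_nonneg hB hL') (mul_nonneg hL hB'),
    fun W hW u hu => (h1 W hW u hu).mul (h𝒲.wt W hW) (g1 W hW u hu), fun u v hu hv => ?_⟩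
  have := ((h1 wone h𝒲.one u hu).mul wt_wone (g2 u v hu hv)).add wt_wone
    ((h2 u v hu hv).mul wt_wone (g1 wone h𝒲.one v hv))
  refine Bd.mono (r := B * (L' * wn wone (fun k => u k - v k))
    + L * wn wone (fun k => u k - v k) * B') ?_ (le_of_eq (by ring))
  convert this using 1
  ring

theorem Tame.exp (h𝒲 : Fam 𝒲) (hF : Tame 𝒲 F) :
    Tame 𝒲 fun u => fun p => Complex.exp (F u p) := by
  obtain ⟨B, L, hB, hL, h1, h2⟩ := hF
  refine ⟨Real.exp B, Real.exp B * L * Real.exp (L * 2), by positivity, by positivity,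
    fun W hW u hu => (h1 W hW u hu).exp (h𝒲.wt W hW), fun u v hu hv => ?_⟩
  have hd : wn wone (fun k => u k - v k) ≤ 2 := by
    have hle : ∀ k, wone k * ‖u k - v k‖ ≤ wone k * ‖u k‖ + wone k * ‖v k‖ := fun k => by
      simpa [wone] using norm_sub_le (u k) (v k)
    refine le_trans (((hu.1.add hv.1).of_nonneg_of_le (fun k => by simp [wone]) hle).tsum_le_tsum hle
      (hu.1.add hv.1)) ?_
    rw [hu.1.tsum_add hv.1]
    have h3 := hu.2
    have h4 := hv.2
    simp only [wn] at h3 h4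
    linarith
  have := ((h1 wone h𝒲.one v hv).exp wt_wone).mul wt_wone ((h2 u v hu hv).exp_sub_one wt_wone)
  refine Bd.mono (r := Real.exp B * (L * wn wone (fun k => u k - v k)
    * Real.exp (L * wn wone (fun k => u k - v k)))) ?_ ?_
  · convert this using 1
    funext p
    simp only [Pi.sub_apply, Pi.mul_apply, mul_sub, mul_one, ← Complex.exp_add]
    ring_nf
  · have h5 : Real.exp (L * wn wone (fun k => u k - v k)) ≤ Real.exp (L * 2) :=
      Real.exp_le_exp.mpr (mul_le_mul_of_nonneg_left hd hL)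
    have h6 := wn_sub_nonneg u v
    have := mul_le_mul_of_nonneg_left h5 (mul_nonneg (mul_nonneg (Real.exp_pos B).le hL) h6)
    linarith

/-- An affine map given by a bounded multiplier and fixed data. -/
theorem tame_affine (h𝒲 : Fam 𝒲) {c m : K → ℂ} {A C : ℝ} (hC : 0 ≤ C) (hm : ∀ k, ‖m k‖ ≤ C)
    (hc : ∀ W, 𝒲 W → (Summable fun k => W k * ‖c k‖) ∧ wn W c ≤ A) :
    Tame 𝒲 fun u => fser fun k => c k + m k * u k := by
  have A0 : 0 ≤ A := le_trans (wt_wone.wn_nonneg c) (hc wone h𝒲.one).2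
  refine ⟨A + C, C, add_nonneg A0 hC, hC, fun W hW u hu => ?_, fun u v hu hv => ?_⟩
  · have hWt := h𝒲.wt W hW
    obtain ⟨c1, c2⟩ := hc W hW
    have hle : ∀ k, W k * ‖c k + m k * u k‖ ≤ W k * ‖c k‖ + C * (W k * ‖u k‖) := fun k => by
      refine le_trans (mul_le_mul_of_nonneg_left (norm_add_le _ _) (hWt.nonneg k)) ?_
      rw [mul_add, norm_mul]
      refine add_le_add le_rfl ?_
      calc W k * (‖m k‖ * ‖u k‖) ≤ W k * (C * ‖u k‖) := mul_le_mul_of_nonneg_left
            (mul_le_mul_of_nonneg_right (hm k) (norm_nonneg _)) (hWt.nonneg k)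
        _ = _ := by ring
    have hs := c1.add (hu.1.mul_left C)
    have h1 := hs.of_nonneg_of_le (fun k => mul_nonneg (hWt.nonneg k) (norm_nonneg _)) hle
    refine ⟨_, h1, le_trans (h1.tsum_le_tsum hle hs) ?_, rfl⟩
    rw [c1.tsum_add (hu.1.mul_left C), tsum_mul_left]
    exact add_le_add c2 (mul_le_of_le_one_right hC hu.2)
  · have hsum : ∀ w, Small wone w → Summable fun k => ‖c k + m k * w k‖ := fun w hw => by
      refine ((wt_wone.summable_norm (hc wone h𝒲.one).1).add ((hw.norm wt_wone).mul_left C)).of_nonneg_of_le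
        (fun k => norm_nonneg _) fun k => (norm_add_le _ _).trans (add_le_add le_rfl ?_)
      rw [norm_mul]; exact mul_le_mul_of_nonneg_right (hm k) (norm_nonneg _)
    have hle : ∀ k, wone k * ‖(c k + m k * u k) - (c k + m k * v k)‖
        ≤ C * (wone k * ‖u k - v k‖) := fun k => by
      rw [add_sub_add_left_eq_sub, ← mul_sub, norm_mul]
      simpa [wone] using mul_le_mul_of_nonneg_right (hm k) (norm_nonneg (u k - v k))
    have hd : Summable fun k => wone k * ‖u k - v k‖ :=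
      (hu.1.add hv.1).of_nonneg_of_le (fun k => by simp [wone]) fun k => by
        simpa [wone] using norm_sub_le (u k) (v k)
    have h1 := (hd.mul_left C).of_nonneg_of_le (fun k => by simp [wone]) hle
    refine ⟨_, h1, le_trans (h1.tsum_le_tsum hle (hd.mul_left C)) (le_of_eq tsum_mul_left), ?_⟩
    exact (fser_sub (hsum u hu) (hsum v hv)).symm

/-- One step of the iteration: the coefficients without the mean. -/
def step (F : (K → ℂ) → R2 → ℂ) (t : ℝ) (u : K → ℂ) (k : K) : ℂ :=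
  if k = 0 then 0 else (t : ℂ) * fcoef (F u) k

lemma step_small {B : ℝ} {W : K → ℝ} {u : K → ℂ} {t : ℝ} (hW : Wt W) (hB : Bd W (F u) B)
    (ht : 0 ≤ t) (htB : t * B ≤ 1) : Small W (step F t u) := by
  obtain ⟨h1, h2, -⟩ := hB.coef hW
  have hle : ∀ k, W k * ‖step F t u k‖ ≤ t * (W k * ‖fcoef (F u) k‖) := fun k => by
    rw [step]
    split_ifs with h
    · rw [norm_zero, mul_zero]
      exact mul_nonneg ht (mul_nonneg (hW.nonneg k) (norm_nonneg _))
    · rw [norm_mul, Complex.norm_real, Real.norm_of_nonneg ht]; exact le_of_eq (by ring)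
  have h3 := (h1.mul_left t).of_nonneg_of_le
    (fun k => mul_nonneg (hW.nonneg k) (norm_nonneg _)) hle
  refine ⟨h3, le_trans (h3.tsum_le_tsum hle (h1.mul_left t)) ?_⟩
  rw [tsum_mul_left]
  exact le_trans (mul_le_mul_of_nonneg_left h2 ht) htB

lemma step_dist {B L : ℝ} {u v : K → ℂ} {s t : ℝ} (hu : Bd wone (F u) B) (hv : Bd wone (F v) B)
    (hd : Bd wone (F u - F v) (L * wn wone (fun k => u k - v k))) (ht : 0 ≤ t) :
    (Summable fun k => ‖step F t u k - step F s v k‖) ∧
      ∑' k, ‖step F t u k - step F s v k‖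
        ≤ t * (L * wn wone (fun k => u k - v k)) + |t - s| * B := by
  obtain ⟨a1, -, a3⟩ := hu.coef wt_wone
  obtain ⟨b1, b2, b3⟩ := hv.coef wt_wone
  obtain ⟨d1, d2, -⟩ := hd.coef wt_wone
  have sa := wt_wone.summable_norm a1
  have sb := wt_wone.summable_norm b1
  have e : fcoef (F u - F v) = fun k => fcoef (F u) k - fcoef (F v) k := by
    conv_lhs => rw [← a3, ← b3, ← fser_sub sa sb]
    exact fcoef_fser ((sa.add sb).of_nonneg_of_le (fun k => norm_nonneg _) fun k => norm_sub_le _ _)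
  rw [e] at d1 d2
  have hle : ∀ k, ‖step F t u k - step F s v k‖
      ≤ t * (wone k * ‖fcoef (F u) k - fcoef (F v) k‖) + |t - s| * (wone k * ‖fcoef (F v) k‖) := by
    intro k
    simp only [step, wone, one_mul]
    split_ifs with h
    · simp only [sub_self, norm_zero]; positivity
    · rw [show (t : ℂ) * fcoef (F u) k - (s : ℂ) * fcoef (F v) k
        = (t : ℂ) * (fcoef (F u) k - fcoef (F v) k) + ((t - s : ℝ) : ℂ) * fcoef (F v) k by
          push_cast; ring]
      refine (norm_add_le _ _).trans (le_of_eq ?_)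
      rw [norm_mul, norm_mul, Complex.norm_real, Complex.norm_real, Real.norm_of_nonneg ht,
        Real.norm_eq_abs]
  have hs := (d1.mul_left t).add (b1.mul_left |t - s|)
  have h1 := hs.of_nonneg_of_le (fun k => norm_nonneg _) hle
  refine ⟨h1, le_trans (h1.tsum_le_tsum hle hs) ?_⟩
  rw [(d1.mul_left t).tsum_add (b1.mul_left _), tsum_mul_left, tsum_mul_left]
  exact add_le_add (mul_le_mul_of_nonneg_left d2 ht) (mul_le_mul_of_nonneg_left b2 (abs_nonneg _))

/-- Fixed points for all small parameters, with all weights and Lipschitz dependence. -/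
theorem exists_fixed (h𝒲 : Fam 𝒲) (hF : Tame 𝒲 F)
    (hreal : ∀ u, Small wone u → Sym u → ∀ p, conj (F u p) = F u p) :
    ∃ (t₀ B : ℝ) (U : ℝ → K → ℂ), 0 < t₀ ∧ 0 ≤ B ∧ (∀ k, U 0 k = 0) ∧ ∀ t ∈ Set.Icc 0 t₀,
      (∀ W, 𝒲 W → Small W (U t)) ∧ Sym (U t) ∧ (∀ k, U t k = step F t (U t) k) ∧
      Bd wone (F (U t)) B ∧
      ∀ s ∈ Set.Icc 0 t₀, ∑' k, ‖U t k - U s k‖ ≤ 2 * B * |t - s| := by
  obtain ⟨B, L, hB, hL, h1, h2⟩ := hF
  set t₀ := 1 / (2 * (B + L + 1)) with ht₀
  have ht0 : 0 < t₀ := by positivity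
  have hsmall : ∀ t ∈ Set.Icc 0 t₀, t * B ≤ 1 ∧ t * L ≤ 1 / 2 := by
    rintro t ⟨t0, t1⟩
    rw [ht₀, le_div_iff₀ (by positivity)] at t1
    constructor <;> nlinarith [mul_nonneg t0 hB, mul_nonneg t0 hL]
  let it : ℝ → ℕ → K → ℂ := fun t n => (step F t)^[n] 0
  have hit : ∀ t ∈ Set.Icc 0 t₀, ∀ n, (∀ W, 𝒲 W → Small W (it t n)) ∧ Sym (it t n) := by
    intro t ht n
    induction n with
    | zero =>
      refine ⟨fun W hW => ⟨?_, ?_⟩, fun k => ?_⟩ <;> simp [it, wn, summable_zero]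
    | succ n ih =>
      have e : it t (n + 1) = step F t (it t n) := Function.iterate_succ_apply' _ _ _
      rw [e]
      refine ⟨fun W hW => step_small (h𝒲.wt W hW) (h1 W hW _ (ih.1 W hW)) ht.1 (hsmall t ht).1, ?_⟩
      obtain ⟨c1, -, c3⟩ := (h1 wone h𝒲.one _ (ih.1 _ h𝒲.one)).coef wt_wone
      have hsym := sym_fcoef_of_real (wt_wone.summable_norm c1) c3.symm
        (hreal _ (ih.1 _ h𝒲.one) ih.2)
      intro k
      simp only [step, neg_eq_zero]
      split_ifs with h
      · simp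
      · rw [hsym k, map_mul, Complex.conj_ofReal]
  have hdist : ∀ t ∈ Set.Icc 0 t₀, ∀ n,
      (Summable fun k => ‖it t (n + 1) k - it t n k‖) ∧
        ∑' k, ‖it t (n + 1) k - it t n k‖ ≤ (1 / 2) ^ n := by
    intro t ht n
    induction n with
    | zero =>
      have hs := (hit t ht 1).1 wone h𝒲.one
      have e : ∀ k, ‖it t (0 + 1) k - it t 0 k‖ = wone k * ‖it t 1 k‖ := fun k => by simp [it, wone]
      simp only [e, pow_zero]
      exact hs
    | succ n ih =>
      have a := (hit t ht (n + 1)).1 wone h𝒲.one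
      have b := (hit t ht n).1 wone h𝒲.one
      obtain ⟨d1, d2⟩ := step_dist (s := t) (h1 _ h𝒲.one _ a) (h1 _ h𝒲.one _ b) (h2 _ _ a b) ht.1
      have e : ∀ m, it t (m + 1) = step F t (it t m) := fun m => Function.iterate_succ_apply' _ _ _
      rw [← e (n + 1), ← e n] at d1 d2
      refine ⟨d1, d2.trans ?_⟩
      rw [sub_self, abs_zero, zero_mul, add_zero, wn_wone, ← mul_assoc, pow_succ']
      exact mul_le_mul (hsmall t ht).2 ih.2 (tsum_nonneg fun k => norm_nonneg _) (by norm_num)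
  let U : ℝ → K → ℂ := fun t k => limUnder atTop fun n => it t n k
  have hU : ∀ t ∈ Set.Icc 0 t₀, ∀ k, Tendsto (fun n => it t n k) atTop (𝓝 (U t k)) := by
    intro t ht k
    refine tendsto_nhds_limUnder (cauchySeq_tendsto_of_complete ?_)
    refine cauchySeq_of_le_geometric (1 / 2) 1 (by norm_num) fun n => ?_
    rw [dist_comm, dist_eq_norm, one_mul]
    exact ((hdist t ht n).1.le_tsum k fun j _ => norm_nonneg _).trans (hdist t ht n).2
  have hUW : ∀ t ∈ Set.Icc 0 t₀, ∀ W, 𝒲 W → Small W (U t) := by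
    intro t ht W hW
    have hWt := h𝒲.wt W hW
    have hT : ∀ T : Finset K, ∑ k ∈ T, W k * ‖U t k‖ ≤ 1 := fun T =>
      le_of_tendsto (tendsto_finsetSum T fun k _ => ((hU t ht k).norm.const_mul (W k)))
        (Eventually.of_forall fun n => le_trans (((hit t ht n).1 W hW).1.sum_le_tsum T
          fun k _ => mul_nonneg (hWt.nonneg k) (norm_nonneg _)) ((hit t ht n).1 W hW).2)
    have hs := summable_of_sum_le (fun k => mul_nonneg (hWt.nonneg k) (norm_nonneg (U t k))) hT
    exact ⟨hs, hs.tsum_le_of_sum_le hT⟩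
  have hUdist : ∀ t ∈ Set.Icc 0 t₀, ∀ n, wn wone (fun k => U t k - it t n k) ≤ 2 * (1 / 2) ^ n := by
    intro t ht n
    have a := hUW t ht wone h𝒲.one
    have b := (hit t ht n).1 wone h𝒲.one
    have hs : Summable fun k => wone k * ‖U t k - it t n k‖ :=
      (a.1.add b.1).of_nonneg_of_le (fun k => by simp [wone]) fun k => by
        simpa [wone] using norm_sub_le (U t k) (it t n k)
    refine hs.tsum_le_of_sum_le fun T => ?_
    simp only [wone, one_mul]
    refine le_of_tendsto (tendsto_finsetSum T fun k _ => (((hU t ht k)).sub_const (it t n k)).norm)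
      (eventually_atTop.mpr ⟨n, fun m hm => ?_⟩)
    obtain ⟨j, rfl⟩ := Nat.exists_eq_add_of_le hm
    have : ∑ k ∈ T, ‖it t (n + j) k - it t n k‖ ≤ 2 * (1 / 2) ^ n - 2 * (1 / 2) ^ (n + j) := by
      clear hm
      induction j with
      | zero => simp
      | succ j ih =>
        refine le_trans (Finset.sum_le_sum fun k _ =>
          norm_sub_le_norm_sub_add_norm_sub _ (it t (n + j) k) _) ?_
        rw [Finset.sum_add_distrib]
        have := ((hdist t ht (n + j)).1.sum_le_tsum T fun k _ => norm_nonneg _).trans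
          (hdist t ht (n + j)).2
        rw [show n + (j + 1) = n + j + 1 from rfl, pow_succ]
        linarith
    have hp : (0 : ℝ) ≤ 2 * (1 / 2) ^ (n + j) := by positivity
    linarith
  have hfix : ∀ t ∈ Set.Icc 0 t₀, ∀ k, U t k = step F t (U t) k := by
    intro t ht k
    refine tendsto_nhds_unique ((hU t ht k).comp (tendsto_add_atTop_nat 1)) ?_
    rw [tendsto_iff_norm_sub_tendsto_zero]
    refine squeeze_zero (fun n => norm_nonneg _) (fun n => ?_)
      (show Tendsto (fun n : ℕ => 2 * (1 / 2 : ℝ) ^ n) atTop (𝓝 0) by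
        simpa using (tendsto_pow_atTop_nhds_zero_of_lt_one (by norm_num : (0 : ℝ) ≤ 1 / 2)
          (by norm_num)).const_mul 2)
    have a := hUW t ht wone h𝒲.one
    have b := (hit t ht n).1 wone h𝒲.one
    obtain ⟨d1, d2⟩ := step_dist (s := t) (h1 _ h𝒲.one _ b) (h1 _ h𝒲.one _ a) (h2 _ _ b a) ht.1
    simp only [Function.comp_apply, it, Function.iterate_succ_apply']
    refine (d1.le_tsum k fun j _ => norm_nonneg _).trans (d2.trans ?_)
    rw [sub_self, abs_zero, zero_mul, add_zero, ← mul_assoc]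
    have e : wn wone (fun k => it t n k - U t k) = wn wone (fun k => U t k - it t n k) := by
      simp [wn, norm_sub_rev]
    rw [e]
    exact le_trans (mul_le_of_le_one_left (wt_wone.wn_nonneg _) (by linarith [(hsmall t ht).2]))
      (hUdist t ht n)
  refine ⟨t₀, B, U, ht0, hB, fun k => ?_, fun t ht => ⟨hUW t ht, fun k => ?_, hfix t ht,
    h1 _ h𝒲.one _ (hUW t ht _ h𝒲.one), fun s hs => ?_⟩⟩
  · rw [hfix 0 ⟨le_rfl, ht0.le⟩ k, step]
    split_ifs <;> simp
  · exact tendsto_nhds_unique (hU t ht (-k))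
      (((Complex.continuous_conj.tendsto _).comp (hU t ht k)).congr fun n => ((hit t ht n).2 k).symm)
  · have a := hUW t ht wone h𝒲.one
    have b := hUW s hs wone h𝒲.one
    obtain ⟨d1, d2⟩ := step_dist (s := s) (h1 _ h𝒲.one _ a) (h1 _ h𝒲.one _ b) (h2 _ _ a b) ht.1
    simp only [← hfix t ht, ← hfix s hs, wn_wone] at d2
    have h0 : 0 ≤ ∑' k, ‖U t k - U s k‖ := tsum_nonneg fun k => norm_nonneg _
    have := mul_le_mul_of_nonneg_right (hsmall t ht).2 h0
    linarith

end

end Vale.Agent.P205.Four
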